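import Vale.Agent.P284.H958.V9a

/-! # P284 (helper958), V9: bounded in `L²` and energy `→ 0` implies weakly `→ 0`. -/

open scoped Manifold ContDiff Topology Pointwise ComplexConjugate ComplexOrder ENNReal
open Filter Set Metric MeasureTheory

noncomputable section

namespace Vale.Agent.P284.H958

open Vale.Agent.P272.K Vale.Agent.P284.H248 Vale.Agent.P284.H894 Vale.Agent.P284.H894.V

/-- infinitely many almost equal numbers with bounded sum of squares are small -/
lemma small_of {Γ : Type} [Infinite Γ] (x s D : ℕ → Γ → ℝ) (c B : ℝ) (hc : 0 < c)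
    (hd : ∀ γ γ', Tendsto (fun j => x j γ - x j γ') atTop (𝓝 0))
    (hD : ∀ γ, Tendsto (fun j => D j γ) atTop (𝓝 0))
    (h : ∀ j γ, c * x j γ ^ 2 ≤ s j γ + D j γ) (hs : ∀ j (F : Finset Γ), ∑ γ ∈ F, s j γ ≤ B) (γ : Γ) :
    Tendsto (fun j => x j γ) atTop (𝓝 0) := by
  have hB : 0 ≤ B := by simpa using hs 0 ∅
  have key : Tendsto (fun j => x j γ ^ 2) atTop (𝓝 0) := by
    rw [Metric.tendsto_atTop]
    intro ε hε
    obtain ⟨N, hN⟩ := exists_nat_gt ((2 * B / c + 1) / ε)
    obtain ⟨F, hF⟩ := Infinite.exists_subset_card_eq Γ N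
    set R : ℕ → ℝ := fun j => 2 * ((B + ∑ γ' ∈ F, D j γ') / c) + 2 * ∑ γ' ∈ F, (x j γ - x j γ') ^ 2 with hR
    have hRt : Tendsto R atTop (𝓝 (2 * ((B + ∑ γ' ∈ F, (0 : ℝ)) / c) + 2 * ∑ γ' ∈ F, (0 : ℝ) ^ 2)) := by
      refine Tendsto.add (Tendsto.const_mul 2 (Tendsto.div_const (Tendsto.add tendsto_const_nhds
        (tendsto_finsetSum _ fun γ' _ => hD γ')) c)) (Tendsto.const_mul 2
        (tendsto_finsetSum _ fun γ' _ => (hd γ γ').pow 2))
    have e0 : 2 * ((B + ∑ γ' ∈ F, (0 : ℝ)) / c) + 2 * ∑ γ' ∈ F, (0 : ℝ) ^ 2 = 2 * B / c := by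
      simp; ring
    rw [e0] at hRt
    have hev := hRt.eventually (gt_mem_nhds (show 2 * B / c < 2 * B / c + 1 by linarith))
    obtain ⟨J, hJ⟩ := eventually_atTop.1 hev
    refine ⟨J, fun j hj => ?_⟩
    have h1 := hJ j hj
    have h2 : (N : ℝ) * x j γ ^ 2 ≤ R j := by
      have e1 : (N : ℝ) * x j γ ^ 2 = ∑ γ' ∈ F, x j γ ^ 2 := by
        rw [Finset.sum_const, hF, nsmul_eq_mul]
      have e2 : ∑ γ' ∈ F, x j γ ^ 2 ≤ ∑ γ' ∈ F, (2 * x j γ' ^ 2 + 2 * (x j γ - x j γ') ^ 2) :=
        Finset.sum_le_sum fun γ' _ => by nlinarith [sq_nonneg (x j γ' - (x j γ - x j γ'))]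
      have e3 : ∑ γ' ∈ F, x j γ' ^ 2 ≤ (B + ∑ γ' ∈ F, D j γ') / c := by
        rw [le_div_iff₀ hc]
        calc (∑ γ' ∈ F, x j γ' ^ 2) * c = ∑ γ' ∈ F, c * x j γ' ^ 2 := by
              rw [Finset.sum_mul]; exact Finset.sum_congr rfl fun _ _ => mul_comm _ _
          _ ≤ ∑ γ' ∈ F, (s j γ' + D j γ') := Finset.sum_le_sum fun γ' _ => h j γ'
          _ = (∑ γ' ∈ F, s j γ') + ∑ γ' ∈ F, D j γ' := Finset.sum_add_distrib
          _ ≤ _ := by linarith [hs j F]
      rw [e1]
      refine e2.trans ?_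
      rw [Finset.sum_add_distrib, ← Finset.mul_sum, ← Finset.mul_sum, hR]
      linarith
    have hNpos : (0 : ℝ) < N := lt_of_le_of_lt (by positivity) hN
    have h3 : (2 * B / c + 1) < N * ε := by
      rwa [div_lt_iff₀ hε] at hN
    have h4 : (N : ℝ) * x j γ ^ 2 < N * ε := by linarith
    have h5 : x j γ ^ 2 < ε := lt_of_mul_lt_mul_left h4 hNpos.le
    rw [Real.dist_eq, sub_zero, abs_of_nonneg (sq_nonneg _)]
    exact h5
  have h6 := key.sqrt
  rw [Real.sqrt_zero] at h6
  refine squeeze_zero_norm (fun j => ?_) h6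
  rw [Real.norm_eq_abs, Real.sqrt_sq_eq_abs]

/-- `a ≤ c (δ w + b / δ)` for all `δ` and `b → 0` -/
lemma small_of' (a b : ℕ → ℝ) (c w : ℝ) (hw : 0 ≤ w) (hc : 0 ≤ c) (ha : ∀ j, 0 ≤ a j)
    (hb : Tendsto b atTop (𝓝 0)) (h : ∀ j δ, 0 < δ → a j ≤ c * (δ * w + b j / δ)) :
    Tendsto a atTop (𝓝 0) := by
  rw [Metric.tendsto_atTop]
  intro ε hε
  set δ := ε / (2 * (c * w + 1)) with hδ
  have hcw : 0 ≤ c * w := mul_nonneg hc hw
  have hδ0 : 0 < δ := by positivity
  have h1 : Tendsto (fun j => c * (δ * w + b j / δ)) atTop (𝓝 (c * (δ * w + 0 / δ))) :=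
    Tendsto.const_mul c (Tendsto.const_add _ (hb.div_const δ))
  have h2 : c * (δ * w + 0 / δ) < ε := by
    rw [zero_div, add_zero, hδ]
    have : c * (ε / (2 * (c * w + 1)) * w) = ε * (c * w / (2 * (c * w + 1))) := by ring
    rw [this]
    have h3 : c * w / (2 * (c * w + 1)) < 1 := by
      rw [div_lt_one (by positivity)]; linarith
    nlinarith
  obtain ⟨J, hJ⟩ := eventually_atTop.1 (h1.eventually (gt_mem_nhds h2))
  refine ⟨J, fun j hj => ?_⟩
  rw [Real.dist_eq, sub_zero, abs_of_nonneg (ha j)]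
  exact (h j δ hδ0).trans_lt (hJ j hj)

lemma tendsto_of_sq {x : ℕ → ℝ} (h : Tendsto (fun j => x j ^ 2) atTop (𝓝 0)) :
    Tendsto x atTop (𝓝 0) := by
  have h6 := h.sqrt
  rw [Real.sqrt_zero] at h6
  refine squeeze_zero_norm (fun j => ?_) h6
  rw [Real.norm_eq_abs, Real.sqrt_sq_eq_abs]

variable {n : ℕ} {Γ : Type} [Group Γ]

section
variable {C : Coc n Γ}

lemma ball2_sub_V (C : Coc n Γ) (a : C.I) : ball (C.c a) (2 * C.r a) ⊆ C.V a :=
  ball_subset_ball (by linarith [C.r_pos a])

lemma cball2_sub_V (C : Coc n Γ) (a : C.I) : closedBall (C.c a) (2 * C.r a) ⊆ C.V a :=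
  closedBall_subset_ball (by linarith [C.r_pos a])

lemma det_cont (K : KM C) (a : C.I) : ContinuousOn (vol (K.w a)) (C.Ω a) := by
  intro z hz
  have h1 : ContinuousAt (fun y => K.w a y) z := by
    refine continuousAt_pi.2 fun i => continuousAt_pi.2 fun j => ?_
    exact ((K.ku a).smooth z hz i j).continuousAt
  have h2 : ContinuousAt (fun y => (K.w a y).det) z := by
    have h3 : Continuous fun A : Matrix (Fin n) (Fin n) ℂ => A.det :=
      Continuous.matrix_det continuous_id
    exact h3.continuousAt.comp h1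
  exact (Complex.continuous_re.continuousAt.comp h2).continuousWithinAt

lemma Lam_ge (K : KM C) (a : C.I) : K.lam ≤ K.Lam :=
  (K.vol_low a (C.c a) (mem_ball_self (by linarith [C.r_pos a]))).trans
    (K.vol_up a (C.c a) (mem_ball_self (by linarith [C.r_pos a])))

/-- weighted integrals of nonnegative functions -/
lemma int_vol_ge (K : KM C) (a : C.I) {G : Cm n → ℝ} (hG : ContinuousOn G (C.Ω a))
    (h0 : ∀ z ∈ C.Ω a, 0 ≤ G z) :
    K.lam * ∫ z in C.V a, G z ≤ ∫ z in C.V a, G z * vol (K.w a) z := by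
  have i1 : IntegrableOn G (C.V a) := integrableOn_cball (hG.mono (C.cV_sub a))
  have i2 : IntegrableOn (fun z => G z * vol (K.w a) z) (C.V a) :=
    integrableOn_cball ((hG.mono (C.cV_sub a)).mul ((det_cont K a).mono (C.cV_sub a)))
  rw [← integral_const_mul]
  refine setIntegral_mono_on (i1.const_mul _) i2 measurableSet_ball fun z hz => ?_
  rw [mul_comm]
  exact mul_le_mul_of_nonneg_left (K.vol_low a z (C.V_sub a hz)) (h0 z (C.V_sub a hz))

lemma tsum_le_fin {α : Type} (u : α → ℝ) (hu : ∀ i, 0 ≤ u i) (hfin : (Function.support u).Finite)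
    (F : Finset α) : ∑ i ∈ F, u i ≤ ∑' i, u i :=
  (summable_of_hasFiniteSupport hfin).sum_le_tsum F fun i _ => hu i

lemma supp_fin {G : Γ → C.I → Cm n → ℝ} (hG : Fam C G) (K : KM C) (a : C.I) :
    (Function.support fun γ => ∫ z in C.V a, G γ a z * vol (K.w a) z).Finite := by
  refine hG.fin.subset fun γ hγ => ?_
  by_contra h
  refine hγ ?_
  refine setIntegral_eq_zero_of_forall_eq_zero fun z hz => ?_
  have : G γ a z = 0 := by
    by_contra h0
    exact h ⟨a, z, hz, h0⟩
  rw [this, zero_mul]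

/-- sums over finitely many pieces are bounded by the total integral -/
lemma sum_le_Int (h3 : V3Stmt) (P : PU C) (K : KM C) {G : Γ → C.I → Cm n → ℝ} (hG : Fam C G)
    (h0 : ∀ γ a, ∀ z ∈ C.Ω a, 0 ≤ G γ a z) (a : C.I) (F : Finset Γ) :
    ∑ γ ∈ F, ∫ z in C.V a, G γ a z ≤ Int P K G / K.lam := by
  rw [le_div_iff₀ K.lam_pos, Finset.sum_mul]
  calc ∑ γ ∈ F, (∫ z in C.V a, G γ a z) * K.lam
      ≤ ∑ γ ∈ F, ∫ z in C.V a, G γ a z * vol (K.w a) z := by
        refine Finset.sum_le_sum fun γ _ => ?_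
        rw [mul_comm]
        exact int_vol_ge K a (hG.cont γ a) (h0 γ a)
    _ ≤ ∑' γ, ∫ z in C.V a, G γ a z * vol (K.w a) z := by
        refine tsum_le_fin _ (fun γ => ?_) (supp_fin hG K a) F
        refine setIntegral_nonneg measurableSet_ball fun z hz => ?_
        exact mul_nonneg (h0 γ a z (C.V_sub a hz))
          (K.lam_pos.le.trans (K.vol_low a z (C.V_sub a hz)))
    _ ≤ Int P K G := h3.le C P K G hG h0 a

end

/-- **V9** -/
theorem v9Stmt : V9Stmt := by
  intro hP h3 h5 h11 h12 n Γ _ _ C P K h hT hB hE f hf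
  obtain ⟨B, hB⟩ := hB
  classical
  have hpos : ∀ a, ∀ z ∈ C.Ω a, (K.w a z).PosDef := fun a => (K.ku a).pos
  set e : ℕ → ℝ := fun j => Int P K (Gr K (h j) (h j)) with he
  have hGrF : ∀ j, Fam C (Gr K (h j) (h j)) := fun j => (h5.fam C K (h j) (h j) (hT j) (hT j)).2.1
  have hGr0 : ∀ j γ a, ∀ z ∈ C.Ω a, 0 ≤ Gr K (h j) (h j) γ a z := fun j γ a z hz =>
    (hP.nonneg (K.w a) (h j γ a) z (hpos a z hz)).1
  have hSqF : ∀ j, Fam C (fun γ a z => h j γ a z ^ 2) := by
    intro j
    have := (h5.fam C K (h j) (h j) (hT j) (hT j)).1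
    simpa only [← sq] using this
  -- the energy of the pieces
  have hLam : ∀ a : C.I, 0 < K.Lam := fun a => K.lam_pos.trans_le (Lam_ge K a)
  have hE1 : ∀ j γ a, ∫ z in C.V a, D1 (h j γ a) z ≤ K.Lam / K.lam * e j := by
    intro j γ a
    have h1 : ∫ z in C.V a, D1 (h j γ a) z ≤ ∫ z in C.V a, K.Lam * Gr K (h j) (h j) γ a z := by
      refine integral_mono_of_nonneg (Eventually.of_forall fun z => D1_nonneg _ _) ?_ ?_
      · exact (integrableOn_cball (((hGrF j).cont γ a).mono (C.cV_sub a))).const_mul _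
      · refine (ae_restrict_iff' measurableSet_ball).2 (Eventually.of_forall fun z hz => ?_)
        have hz' := C.V_sub a hz
        exact (hP.ell (K.w a) (h j γ a) z K.lam K.Lam (hpos a z hz') K.lam_pos (K.low a z hz')
          (K.up a z hz')).1
    have h2 := sum_le_Int h3 P K (hGrF j) (hGr0 j) a {γ}
    rw [Finset.sum_singleton] at h2
    rw [integral_const_mul] at h1
    calc _ ≤ _ := h1
      _ ≤ K.Lam * (Int P K (Gr K (h j) (h j)) / K.lam) :=
        mul_le_mul_of_nonneg_left h2 (hLam a).le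
      _ = _ := by rw [he]; ring
  -- the local constants
  have hsm : ∀ j γ a, ∀ z ∈ closedBall (C.c a) (3 * C.r a), ContDiffAt ℝ ∞ (h j γ a) z :=
    fun j γ a z hz => (hT j).smooth γ a z (C.cV_sub a hz)
  have hcont : ∀ j γ a, ContinuousOn (h j γ a) (C.Ω a) := fun j γ a z hz =>
    ((hT j).smooth γ a z hz).continuousAt.continuousWithinAt
  have hc2 : ∀ a, closedBall (C.c a) (2 * C.r a) ⊆ C.Ω a := fun a =>
    (cball2_sub_V C a).trans (C.V_sub a)
  choose A hA0 hA using fun a : C.I => poinc h11 n (C.r a) (C.r_pos a)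
  choose m hm using fun (j : ℕ) (γ : Γ) (a : C.I) => hA a (C.c a) (h j γ a) (hsm j γ a)
  set D : ℕ → Γ → C.I → ℝ := fun j γ a =>
    ∫ z in ball (C.c a) (2 * C.r a), (h j γ a z - m j γ a) ^ 2 with hD
  have hD0 : ∀ j γ a, 0 ≤ D j γ a := fun j γ a => integral_nonneg fun z => sq_nonneg _
  have hDt : ∀ γ a, Tendsto (fun j => D j γ a) atTop (𝓝 0) := by
    intro γ a
    have h1 : Tendsto (fun j => A a * (K.Lam / K.lam * e j)) atTop (𝓝 (A a * (K.Lam / K.lam * 0))) :=
      (hE.const_mul _).const_mul _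
    rw [mul_zero, mul_zero] at h1
    exact squeeze_zero (fun j => hD0 j γ a)
      (fun j => (hm j γ a).trans (mul_le_mul_of_nonneg_left (hE1 j γ a) (hA0 a))) h1
  -- the constants of different pieces
  have hdiff : ∀ γ a γ' b, Tendsto (fun j => m j γ a - m j γ' b) atTop (𝓝 0) := by
    intro γ₀ a₀ γ₁ b₁
    refine h12 n Γ C (fun γ' b => Tendsto (fun j => m j γ₀ a₀ - m j γ' b) atTop (𝓝 0)) ?_
      γ₀ a₀ γ₁ b₁ ?_
    · intro γ a b z hz h1 h2 hQ
      obtain ⟨A', -, hA''⟩ := overlap C a b z hz h1 h2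
      have h4 : ∀ j, (m j γ a - m j (γ * C.κ a b z) b) ^ 2 ≤
          A' * (D j γ a + D j (γ * C.κ a b z) b) := by
        intro j
        refine hA'' (h j γ a) (h j (γ * C.κ a b z) b) _ _ ((hcont j γ a).mono (hc2 a))
          ((hcont j _ b).mono (hc2 b)) fun y hy hκ => ?_
        rw [(hT j).compat γ a b y hy, hκ]
      have h5 : Tendsto (fun j => A' * (D j γ a + D j (γ * C.κ a b z) b)) atTop (𝓝 0) := by
        have := ((hDt γ a).add (hDt (γ * C.κ a b z) b)).const_mul A'
        simpa using this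
      have h6 : Tendsto (fun j => (m j γ a - m j (γ * C.κ a b z) b) ^ 2) atTop (𝓝 0) :=
        squeeze_zero (fun j => sq_nonneg _) h4 h5
      have h7 := tendsto_of_sq h6
      have h8 := hQ.add h7
      rw [add_zero] at h8
      refine h8.congr fun j => ?_
      ring
    · simp
  -- the constants tend to zero
  have hv : ∀ a : C.I, 0 < (volume (ball (C.c a) (2 * C.r a))).toReal := fun a =>
    ENNReal.toReal_pos (measure_ball_pos volume _ (by linarith [C.r_pos a])).ne'
      measure_ball_lt_top.ne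
  have hint : ∀ j γ a, IntegrableOn (fun z => h j γ a z ^ 2) (ball (C.c a) (2 * C.r a)) :=
    fun j γ a => integrableOn_cball (((hcont j γ a).mono (hc2 a)).pow 2)
  have hintD : ∀ j γ a, IntegrableOn (fun z => (h j γ a z - m j γ a) ^ 2)
      (ball (C.c a) (2 * C.r a)) :=
    fun j γ a => integrableOn_cball ((((hcont j γ a).mono (hc2 a)).sub continuousOn_const).pow 2)
  have hm0 : ∀ γ a, Tendsto (fun j => m j γ a) atTop (𝓝 0) := by
    intro γ a
    refine small_of (fun j γ => m j γ a) (fun j γ => 2 * ∫ z in C.V a, h j γ a z ^ 2)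
      (fun j γ => 2 * D j γ a) _ (2 * (B / K.lam)) (hv a) (fun γ γ' => hdiff γ a γ' a)
      (fun γ => by simpa using (hDt γ a).const_mul 2) ?_ ?_ γ
    · intro j γ
      have h4 : ∫ z in ball (C.c a) (2 * C.r a), m j γ a ^ 2 ≤
          ∫ z in ball (C.c a) (2 * C.r a), (2 * h j γ a z ^ 2 + 2 * (h j γ a z - m j γ a) ^ 2) := by
        refine setIntegral_mono_on (integrableOn_const measure_ball_lt_top.ne)
          (((hint j γ a).const_mul 2).add ((hintD j γ a).const_mul 2)) measurableSet_ball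
          fun z _ => ?_
        have := sq_le_two (h j γ a z) (h j γ a z - m j γ a)
        have e1 : h j γ a z - (h j γ a z - m j γ a) = m j γ a := by ring
        rwa [e1] at this
      rw [integral_add ((hint j γ a).const_mul 2) ((hintD j γ a).const_mul 2),
        integral_const_mul, integral_const_mul, setIntegral_const, measureReal_def,
        smul_eq_mul] at h4
      refine h4.trans (add_le_add (mul_le_mul_of_nonneg_left ?_ (by norm_num)) le_rfl)
      exact setIntegral_mono_set
        (integrableOn_cball (((hcont j γ a).mono (C.cV_sub a)).pow 2))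
        (Eventually.of_forall fun z => sq_nonneg _) (LE.le.eventuallyLE (ball2_sub_V C a))
    · intro j F
      rw [← Finset.mul_sum]
      refine mul_le_mul_of_nonneg_left ?_ (by norm_num)
      refine (sum_le_Int h3 P K (hSqF j) (fun γ a z _ => sq_nonneg _) a F).trans ?_
      exact div_le_div_of_nonneg_right (hB j) K.lam_pos.le
  -- the local `L²` norms tend to zero
  have hL2 : ∀ γ a, Tendsto (fun j => ∫ z in ball (C.c a) (2 * C.r a), h j γ a z ^ 2) atTop
      (𝓝 0) := by
    intro γ a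
    have h4 : Tendsto (fun j => 2 * D j γ a + 2 * ((volume (ball (C.c a) (2 * C.r a))).toReal *
        m j γ a ^ 2)) atTop (𝓝 0) := by
      have := ((hDt γ a).const_mul 2).add ((((hm0 γ a).pow 2).const_mul
        (volume (ball (C.c a) (2 * C.r a))).toReal).const_mul 2)
      simpa using this
    refine squeeze_zero (fun j => integral_nonneg fun z => sq_nonneg _) (fun j => ?_) h4
    have h5 : ∫ z in ball (C.c a) (2 * C.r a), h j γ a z ^ 2 ≤
        ∫ z in ball (C.c a) (2 * C.r a), (2 * (h j γ a z - m j γ a) ^ 2 + 2 * m j γ a ^ 2) := by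
      refine setIntegral_mono_on (hint j γ a)
        (((hintD j γ a).const_mul 2).add (integrableOn_const measure_ball_lt_top.ne))
        measurableSet_ball fun z _ => ?_
      nlinarith [sq_nonneg (h j γ a z - m j γ a - m j γ a)]
    rw [integral_add ((hintD j γ a).const_mul 2) (integrableOn_const measure_ball_lt_top.ne),
        integral_const_mul, setIntegral_const, measureReal_def, smul_eq_mul] at h5
    refine h5.trans (le_of_eq ?_)
    ring
  -- the conclusion
  have hGF : ∀ j, Fam C (fun γ a z => h j γ a z * f γ a z) := fun j =>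
    (h5.fam C K (h j) f (hT j) hf).1
  have hGA : ∀ j, Fam C (fun γ a z => |h j γ a z * f γ a z|) := fun j =>
    { cont := fun γ a => ((hGF j).cont γ a).abs
      compat := fun γ a b z hz => by
        have := (hGF j).compat γ a b z hz
        rw [this]
      fin := (hGF j).fin.subset fun γ => by
        rintro ⟨a, z, hz, h0⟩
        exact ⟨a, z, hz, abs_ne_zero.1 h0⟩ }
  set S : Finset Γ := hf.fin.toFinset with hS
  have hfc : ∀ γ a, ContinuousOn (f γ a) (C.Ω a) := fun γ a z hz =>
    (hf.smooth γ a z hz).continuousAt.continuousWithinAt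
  have hW2 : ∀ a, C.W a ⊆ ball (C.c a) (2 * C.r a) := fun a =>
    ball_subset_ball (by linarith [C.r_pos a])
  set I : ℕ → Γ → C.I → ℝ := fun j γ a =>
    ∫ z in C.W a, |h j γ a z * f γ a z| * vol (K.w a) z with hI
  have hIt : ∀ γ a, Tendsto (fun j => I j γ a) atTop (𝓝 0) := by
    intro γ a
    obtain ⟨Q, hQ⟩ := (isCompact_closedBall (C.c a) (2 * C.r a)).exists_bound_of_continuousOn
      (((hfc γ a).mono (hc2 a)).mul ((det_cont K a).mono (hc2 a)))
    have hQ0 : 0 ≤ Q := (norm_nonneg _).trans (hQ (C.c a)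
      (mem_closedBall_self (by linarith [C.r_pos a])))
    refine small_of' _ (fun j => ∫ z in ball (C.c a) (2 * C.r a), h j γ a z ^ 2) Q
      (volume (ball (C.c a) (2 * C.r a))).toReal (hv a).le hQ0 (fun j => ?_) (hL2 γ a)
      (fun j δ hδ => ?_)
    · refine setIntegral_nonneg measurableSet_ball fun z hz => ?_
      exact mul_nonneg (abs_nonneg _) (K.lam_pos.le.trans
        (K.vol_low a z (C.V_sub a (C.W_sub a hz))))
    · have i1 : IntegrableOn (fun z => Q * (δ + h j γ a z ^ 2 / δ)) (ball (C.c a) (2 * C.r a)) :=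
        ((integrableOn_const measure_ball_lt_top.ne).add ((hint j γ a).div_const δ)).const_mul Q
      have h4 : I j γ a ≤ ∫ z in C.W a, Q * (δ + h j γ a z ^ 2 / δ) := by
        refine setIntegral_mono_on ?_ (i1.mono_set (hW2 a)) measurableSet_ball fun z hz => ?_
        · have : IntegrableOn (fun z => |h j γ a z * f γ a z| * vol (K.w a) z)
              (ball (C.c a) (2 * C.r a)) :=
            integrableOn_cball ((((hGA j).cont γ a).mono (hc2 a)).mul
              ((det_cont K a).mono (hc2 a)))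
          exact this.mono_set (hW2 a)
        · have hz2 := hW2 a hz
          have hv0 : 0 ≤ vol (K.w a) z := K.lam_pos.le.trans
            (K.vol_low a z (C.V_sub a (C.W_sub a hz)))
          have h5 := hQ z (ball_subset_closedBall hz2)
          rw [Real.norm_eq_abs, Pi.mul_apply, abs_mul, abs_of_nonneg hv0] at h5
          have h6 : |h j γ a z| ≤ δ + h j γ a z ^ 2 / δ := by
            rw [← sub_nonneg]
            have e1 : δ + h j γ a z ^ 2 / δ - |h j γ a z| =
                ((δ - |h j γ a z|) ^ 2 + δ * |h j γ a z|) / δ := by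
              field_simp
              rw [← sq_abs (h j γ a z)]; ring
            rw [e1]; positivity
          calc |h j γ a z * f γ a z| * vol (K.w a) z
              = |h j γ a z| * (|f γ a z| * vol (K.w a) z) := by rw [abs_mul]; ring
            _ ≤ (δ + h j γ a z ^ 2 / δ) * Q := by
              refine mul_le_mul h6 h5 (mul_nonneg (abs_nonneg _) hv0) (by positivity)
            _ = _ := mul_comm _ _
      refine h4.trans ?_
      have h5 : ∫ z in C.W a, Q * (δ + h j γ a z ^ 2 / δ) ≤
          ∫ z in ball (C.c a) (2 * C.r a), Q * (δ + h j γ a z ^ 2 / δ) :=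
        setIntegral_mono_set i1 (Eventually.of_forall fun z => by
          simp only [Pi.zero_apply]; positivity) (LE.le.eventuallyLE (hW2 a))
      refine h5.trans (le_of_eq ?_)
      have i2 : IntegrableOn (fun _ : Cm n => δ) (ball (C.c a) (2 * C.r a)) :=
        integrableOn_const measure_ball_lt_top.ne
      rw [integral_const_mul, integral_add i2
        ((hint j γ a).div_const δ), setIntegral_const, measureReal_def, smul_eq_mul,
        integral_div, mul_comm δ]
  have hmain : ∀ j, |Int P K (fun γ a z => h j γ a z * f γ a z)| ≤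
      Fintype.card C.I * ∑ γ ∈ S, ∑ a, I j γ a := by
    intro j
    have h4 : Int P K (fun γ a z => |h j γ a z * f γ a z|) ≤
        Fintype.card C.I * ∑ γ ∈ S, ∑ a, I j γ a := by
      refine (h3.ge C P K _ (hGA j) fun γ a z _ => abs_nonneg _).trans (le_of_eq ?_)
      rw [tsum_eq_sum (s := S)]
      intro γ hγ
      refine Finset.sum_eq_zero fun a _ => ?_
      refine setIntegral_eq_zero_of_forall_eq_zero fun z hz => ?_
      have : f γ a z = 0 := by
        by_contra h0
        exact hγ (hf.fin.mem_toFinset.2 ⟨a, z, C.W_sub a hz, h0⟩)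
      rw [this, mul_zero, abs_zero, zero_mul]
    have h6 : Int P K (fun γ a z => h j γ a z * f γ a z) ≤
        Int P K (fun γ a z => |h j γ a z * f γ a z|) :=
      h3.mono C P K _ _ (hGF j) (hGA j) fun γ a z _ => le_abs_self _
    have h7 : Int P K (fun γ a z => (-1 : ℝ) * (h j γ a z * f γ a z) +
        0 * (h j γ a z * f γ a z)) = -Int P K (fun γ a z => h j γ a z * f γ a z) := by
      rw [h3.lin C P K _ _ (-1) 0 (hGF j) (hGF j)]; ring
    have hF7 : Fam C (fun γ a z => (-1 : ℝ) * (h j γ a z * f γ a z) +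
        0 * (h j γ a z * f γ a z)) :=
      { cont := fun γ a => (continuousOn_const.mul ((hGF j).cont γ a)).add
          (continuousOn_const.mul ((hGF j).cont γ a))
        compat := fun γ a b z hz => by
          have := (hGF j).compat γ a b z hz
          rw [this]
        fin := (hGF j).fin.subset fun γ => by
          rintro ⟨a, z, hz, h0⟩
          refine ⟨a, z, hz, fun h1 => h0 ?_⟩
          rw [h1]; ring }
    have h8 : -Int P K (fun γ a z => h j γ a z * f γ a z) ≤
        Int P K (fun γ a z => |h j γ a z * f γ a z|) := by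
      rw [← h7]
      refine h3.mono C P K _ _ hF7 (hGA j) fun γ a z _ => ?_
      have := neg_le_abs (h j γ a z * f γ a z)
      linarith
    exact (abs_le.2 ⟨by linarith, h6⟩).trans h4
  have hfinal : Tendsto (fun j => (Fintype.card C.I : ℝ) * ∑ γ ∈ S, ∑ a, I j γ a) atTop (𝓝 0) := by
    have := (tendsto_finsetSum S fun γ _ => tendsto_finsetSum (Finset.univ : Finset C.I)
      fun a _ => hIt γ a).const_mul (Fintype.card C.I : ℝ)
    simpa using this
  exact squeeze_zero_norm (fun j => by rw [Real.norm_eq_abs]; exact hmain j) hfinal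

end Vale.Agent.P284.H958
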