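import Vale.Agent.P284.H894.V.Spec
import Vale.Agent.P284.H894.B1Step

/-! # P284 (helper958), V9, first part: local Poincaré inequality, comparison on an overlap. -/

open scoped Manifold ContDiff Topology Pointwise ComplexConjugate ComplexOrder ENNReal
open Filter Set Metric MeasureTheory

noncomputable section

namespace Vale.Agent.P284.H958

open Vale.Agent.P272.K Vale.Agent.P284.H248 Vale.Agent.P284.H894 Vale.Agent.P284.H894.V

variable {n : ℕ}

lemma D1_nonneg (f : Cm n → ℝ) (z : Cm n) : 0 ≤ D1 f z := by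
  unfold D1; positivity

lemma sq_le_two (a b : ℝ) : (a - b) ^ 2 ≤ 2 * a ^ 2 + 2 * b ^ 2 := by nlinarith [sq_nonneg (a + b)]

lemma vol_ball (c : Cm n) (r : ℝ) : (volume (ball c r)).toReal = (volume (ball (0 : Cm n) r)).toReal := by
  rw [Measure.addHaar_ball_center]

/-- bounded continuous functions on a ball are integrable -/
lemma integrableOn_ball {c : Cm n} {r : ℝ} {U : Set (Cm n)} (hU : IsOpen U) (hUb : U ⊆ ball c r)
    {f : Cm n → ℝ} (hf : ContinuousOn f U) {M : ℝ} (hM : ∀ z ∈ U, |f z| ≤ M) :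
    IntegrableOn f U := by
  have hfin : IsFiniteMeasure (volume.restrict U) :=
    isFiniteMeasure_restrict.2 ((measure_mono hUb).trans_lt measure_ball_lt_top).ne
  refine Integrable.of_bound (hf.aestronglyMeasurable hU.measurableSet) M ?_
  refine (ae_restrict_iff' hU.measurableSet).2 (Eventually.of_forall fun z hz => ?_)
  exact hM z hz

/-- continuous functions on a closed ball are integrable -/
lemma integrableOn_cball {c : Cm n} {r : ℝ} {f : Cm n → ℝ} (hf : ContinuousOn f (closedBall c r)) :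
    IntegrableOn f (ball c r) :=
  (hf.integrableOn_compact (isCompact_closedBall c r)).mono_set ball_subset_closedBall

/-- **Local Poincaré inequality** (from the mollifier). -/
lemma poinc (h11 : V11Stmt) (n : ℕ) (ρ : ℝ) (hρ : 0 < ρ) : ∃ A : ℝ, 0 ≤ A ∧
    ∀ (c : Cm n) (f : Cm n → ℝ), (∀ z ∈ closedBall c (3 * ρ), ContDiffAt ℝ ∞ f z) →
      ∃ m : ℝ, ∫ z in ball c (2 * ρ), (f z - m) ^ 2 ≤ A * ∫ z in ball c (3 * ρ), D1 f z := by
  obtain ⟨η, B, hB, -, -, -, -, H⟩ := h11 n ρ hρ
  refine ⟨2 * B + 8 * ρ ^ 2 * B * (volume (ball (0 : Cm n) (2 * ρ))).toReal, by positivity, ?_⟩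
  intro c f hf
  obtain ⟨k1, k2, -, -, -, k6, -⟩ := H c (2 * ρ) (3 * ρ) (by linarith) (by linarith) f hf
  set g := mo η f with hg
  set J := ∫ z in ball c (3 * ρ), D1 f z with hJ
  have hJ0 : 0 ≤ J := setIntegral_nonneg measurableSet_ball fun z _ => D1_nonneg f z
  have hcc : c ∈ ball c (2 * ρ) := mem_ball_self (by linarith)
  have hlip : ∀ z ∈ ball c (2 * ρ), (g z - g c) ^ 2 ≤ 4 * ρ ^ 2 * (B * J) := by
    intro z hz
    have h1 := Convex.norm_image_sub_le_of_norm_fderiv_le (𝕜 := ℝ) (f := g) (C := Real.sqrt (B * J))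
      (fun x hx => (k1 x hx).differentiableAt (by simp))
      (fun x hx => Real.le_sqrt_of_sq_le (k6 x hx)) (convex_ball c (2 * ρ)) hcc hz
    have h2 : ‖z - c‖ ≤ 2 * ρ := by rw [← dist_eq_norm]; exact (mem_ball.1 hz).le
    have h3 : |g z - g c| ≤ Real.sqrt (B * J) * (2 * ρ) := by
      rw [← Real.norm_eq_abs]
      exact h1.trans (mul_le_mul_of_nonneg_left h2 (Real.sqrt_nonneg _))
    calc (g z - g c) ^ 2 = |g z - g c| ^ 2 := (sq_abs _).symm
      _ ≤ (Real.sqrt (B * J) * (2 * ρ)) ^ 2 := pow_le_pow_left₀ (abs_nonneg _) h3 2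
      _ = 4 * ρ ^ 2 * (B * J) := by
        rw [mul_pow, Real.sq_sqrt (by positivity)]; ring
  have hfc : ContinuousOn f (closedBall c (3 * ρ)) := fun z hz => (hf z hz).continuousAt.continuousWithinAt
  have hfc2 : ContinuousOn f (closedBall c (2 * ρ)) := hfc.mono (closedBall_subset_closedBall (by linarith))
  have hgc : ContinuousOn g (ball c (2 * ρ)) := fun z hz => (k1 z hz).continuousAt.continuousWithinAt
  obtain ⟨M, hM⟩ := (isCompact_closedBall c (2 * ρ)).exists_bound_of_continuousOn hfc2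
  have hI1 : IntegrableOn (fun z => (f z - g z) ^ 2) (ball c (2 * ρ)) := by
    refine integrableOn_ball (M := 2 * (2 * M ^ 2 + 2 * g c ^ 2) + 2 * (4 * ρ ^ 2 * (B * J)))
      isOpen_ball subset_rfl
      (((hfc2.mono ball_subset_closedBall).sub hgc).pow 2) fun z hz => ?_
    rw [abs_of_nonneg (sq_nonneg _)]
    have h1 := hM z (ball_subset_closedBall hz)
    rw [Real.norm_eq_abs] at h1
    have h2 : f z ^ 2 ≤ M ^ 2 := by
      rw [← sq_abs]; exact pow_le_pow_left₀ (abs_nonneg _) h1 2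
    have h3 := hlip z hz
    have h4 : (f z - g z) ^ 2 ≤ 2 * (f z - g c) ^ 2 + 2 * (g z - g c) ^ 2 := by
      have := sq_le_two (f z - g c) (g z - g c)
      have e : f z - g c - (g z - g c) = f z - g z := by ring
      rwa [e] at this
    have h5 := sq_le_two (f z) (g c)
    nlinarith
  refine ⟨g c, ?_⟩
  have hI2 : IntegrableOn (fun z => (f z - g c) ^ 2) (ball c (2 * ρ)) :=
    integrableOn_cball ((hfc2.sub continuousOn_const).pow 2)
  have hI3 : IntegrableOn (fun _ => 2 * (4 * ρ ^ 2 * (B * J)) : Cm n → ℝ) (ball c (2 * ρ)) :=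
    integrableOn_const (measure_ball_lt_top.ne)
  have h6 : ∫ z in ball c (2 * ρ), (f z - g c) ^ 2 ≤
      ∫ z in ball c (2 * ρ), (2 * (f z - g z) ^ 2 + 2 * (4 * ρ ^ 2 * (B * J))) := by
    refine setIntegral_mono_on hI2 ((hI1.const_mul 2).add hI3) measurableSet_ball fun z hz => ?_
    have h3 := hlip z hz
    have := sq_le_two (f z - g z) (g c - g z)
    have e : f z - g z - (g c - g z) = f z - g c := by ring
    rw [e] at this
    nlinarith
  rw [integral_add (hI1.const_mul 2) hI3, integral_const_mul] at h6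
  rw [setIntegral_const, measureReal_def, vol_ball, smul_eq_mul] at h6
  calc _ ≤ _ := h6
    _ ≤ 2 * (B * J) + (volume (ball (0 : Cm n) (2 * ρ))).toReal * (2 * (4 * ρ ^ 2 * (B * J))) := by
      gcongr
    _ = _ := by ring

variable {Γ : Type} [Group Γ]

/-- change of variables on an overlap, for real integrals -/
lemma int_overlap (C : Coc n Γ) (a b : C.I) (k : Γ) (U : Set (Cm n)) (hU : IsOpen U)
    (hUA : U ⊆ C.A a b k) (hUT : ∀ z ∈ U, C.T a b z ∈ ball (C.c b) (2 * C.r b))
    (g : Cm n → ℝ) (hg : ContinuousOn g (closedBall (C.c b) (2 * C.r b))) :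
    ∫ z in U, g (C.T a b z) ^ 2 ≤
      C.M ^ Module.finrank ℝ (Cm n) * ∫ w in ball (C.c b) (2 * C.r b), g w ^ 2 := by
  have hM : 0 ≤ C.M := zero_le_one.trans C.M_one
  have hTc : ContinuousOn (C.T a b) U := fun z hz =>
    (C.T_smooth (hUA hz).2.1).continuousAt.continuousWithinAt
  have hgT : ContinuousOn (fun z => g (C.T a b z) ^ 2) U := by
    refine ContinuousOn.pow ?_ 2
    exact (hg.mono ball_subset_closedBall).comp hTc hUT
  rw [integral_eq_lintegral_of_nonneg_ae (Eventually.of_forall fun z => sq_nonneg _)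
      (hgT.aestronglyMeasurable hU.measurableSet),
    integral_eq_lintegral_of_nonneg_ae (Eventually.of_forall fun z => sq_nonneg _)
      (((hg.mono ball_subset_closedBall).pow 2).aestronglyMeasurable measurableSet_ball)]
  set G : Cm n → ℝ≥0∞ := (ball (C.c b) (2 * C.r b)).indicator fun w => ENNReal.ofReal (g w ^ 2) with hG
  have h1 : ∫⁻ z in U, ENNReal.ofReal (g (C.T a b z) ^ 2) ≤ ∫⁻ z in C.A a b k, G (C.T a b z) := by
    refine le_trans (le_of_eq ?_) (lintegral_mono_set hUA)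
    refine setLIntegral_congr_fun hU.measurableSet fun z hz => ?_
    rw [hG, indicator_of_mem (hUT z hz)]
  have h2 := C.int_A_le a b k G
  have h3 : ∫⁻ w in C.V b, G w ≤ ∫⁻ w in ball (C.c b) (2 * C.r b), ENNReal.ofReal (g w ^ 2) := by
    calc ∫⁻ w in C.V b, G w ≤ ∫⁻ w, G w := setLIntegral_le_lintegral _ _
      _ = _ := lintegral_indicator measurableSet_ball _
  have h4 : ∫⁻ w in ball (C.c b) (2 * C.r b), ENNReal.ofReal (g w ^ 2) ≠ ⊤ :=
    ((integrableOn_cball (hg.pow 2)).lintegral_lt_top).ne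
  have h5 := h1.trans (h2.trans (mul_le_mul_right h3 _))
  have h6 := ENNReal.toReal_mono (ENNReal.mul_ne_top ENNReal.ofReal_ne_top h4) h5
  rw [ENNReal.toReal_mul, ENNReal.toReal_ofReal (by positivity)] at h6
  exact h6

/-- comparison of the constants on an overlap -/
lemma overlap (C : Coc n Γ) (a b : C.I) (z : Cm n) (hz : z ∈ C.O a b)
    (h1 : z ∈ ball (C.c a) (2 * C.r a)) (h2 : C.T a b z ∈ ball (C.c b) (2 * C.r b)) :
    ∃ A : ℝ, 0 ≤ A ∧ ∀ (f g : Cm n → ℝ) (m m' : ℝ),
      ContinuousOn f (closedBall (C.c a) (2 * C.r a)) →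
      ContinuousOn g (closedBall (C.c b) (2 * C.r b)) →
      (∀ y ∈ C.O a b, C.κ a b y = C.κ a b z → f y = g (C.T a b y)) →
      (m - m') ^ 2 ≤ A * ((∫ y in ball (C.c a) (2 * C.r a), (f y - m) ^ 2) +
        ∫ y in ball (C.c b) (2 * C.r b), (g y - m') ^ 2) := by
  have hM : 0 ≤ C.M := zero_le_one.trans C.M_one
  set U : Set (Cm n) := C.A a b (C.κ a b z) ∩
    (ball (C.c a) (2 * C.r a) ∩ {y | y ∈ C.O a b ∧ C.T a b y ∈ ball (C.c b) (2 * C.r b)}) with hUdef
  have hU : IsOpen U := by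
    refine (C.isOpen_A a b _).inter (isOpen_ball.inter ?_)
    rw [isOpen_iff_mem_nhds]
    rintro y ⟨hy1, hy2⟩
    filter_upwards [(C.O_open a b).mem_nhds hy1,
      (C.T_smooth hy1).continuousAt (isOpen_ball.mem_nhds hy2)] with y' h3 h4
    exact ⟨h3, h4⟩
  have hsub : ∀ d : C.I, ball (C.c d) (2 * C.r d) ⊆ C.V d := fun d =>
    ball_subset_ball (by linarith [C.r_pos d])
  have hzU : z ∈ U := ⟨⟨hsub a h1, hz, hsub b h2, rfl⟩, h1, hz, h2⟩
  have hUb : U ⊆ ball (C.c a) (2 * C.r a) := fun y hy => hy.2.1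
  have hUfin : volume U ≠ ⊤ := ((measure_mono hUb).trans_lt measure_ball_lt_top).ne
  have hv : 0 < (volume U).toReal :=
    ENNReal.toReal_pos (hU.measure_pos volume ⟨z, hzU⟩).ne' hUfin
  set N := C.M ^ Module.finrank ℝ (Cm n) with hN
  have hN1 : 0 ≤ N := by positivity
  refine ⟨(2 + 2 * N) / (volume U).toReal, by positivity, ?_⟩
  intro f g m m' hf hg hfg
  set I1 := ∫ y in ball (C.c a) (2 * C.r a), (f y - m) ^ 2 with hI1
  set I2 := ∫ y in ball (C.c b) (2 * C.r b), (g y - m') ^ 2 with hI2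
  have hI10 : 0 ≤ I1 := integral_nonneg fun y => sq_nonneg _
  have hI20 : 0 ≤ I2 := integral_nonneg fun y => sq_nonneg _
  have i1 : IntegrableOn (fun y => (f y - m) ^ 2) (ball (C.c a) (2 * C.r a)) :=
    integrableOn_cball ((hf.sub continuousOn_const).pow 2)
  have i1' : IntegrableOn (fun y => (f y - m) ^ 2) U := i1.mono_set hUb
  have hTc : ContinuousOn (C.T a b) U := fun y hy =>
    (C.T_smooth hy.2.2.1).continuousAt.continuousWithinAt
  obtain ⟨Q, hQ⟩ := (isCompact_closedBall (C.c b) (2 * C.r b)).exists_bound_of_continuousOn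
    ((hg.sub (continuousOn_const (c := m'))).pow 2)
  have i2 : IntegrableOn (fun y => (g (C.T a b y) - m') ^ 2) U := by
    refine integrableOn_ball (M := Q) hU hUb ?_ fun y hy => ?_
    · refine ContinuousOn.pow (ContinuousOn.sub ?_ continuousOn_const) 2
      exact (hg.mono ball_subset_closedBall).comp hTc fun y hy => hy.2.2.2
    · exact hQ _ (ball_subset_closedBall hy.2.2.2)
  have i0 : IntegrableOn (fun _ => (m - m') ^ 2 : Cm n → ℝ) U := integrableOn_const hUfin
  have e1 : (volume U).toReal * (m - m') ^ 2 = ∫ y in U, (m - m') ^ 2 := by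
    rw [setIntegral_const, measureReal_def, smul_eq_mul]
  have e2 : ∫ y in U, (m - m') ^ 2 ≤
      ∫ y in U, (2 * (f y - m) ^ 2 + 2 * (g (C.T a b y) - m') ^ 2) := by
    refine setIntegral_mono_on i0 ((i1'.const_mul 2).add (i2.const_mul 2)) hU.measurableSet
      fun y hy => ?_
    have h3 := hfg y hy.2.2.1 hy.1.2.2.2
    have h4 := sq_le_two (f y - m) (f y - m')
    have e : f y - m - (f y - m') = -(m - m') := by ring
    rw [e, neg_sq, h3] at h4
    rw [h3]
    exact h4
  rw [integral_add (i1'.const_mul 2) (i2.const_mul 2), integral_const_mul, integral_const_mul] at e2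
  have e3 : ∫ y in U, (f y - m) ^ 2 ≤ I1 :=
    setIntegral_mono_set i1 (Eventually.of_forall fun y => sq_nonneg _)
      (LE.le.eventuallyLE hUb)
  have e4 : ∫ y in U, (g (C.T a b y) - m') ^ 2 ≤ N * I2 :=
    int_overlap C a b (C.κ a b z) U hU (fun y hy => hy.1) (fun y hy => hy.2.2.2)
      (fun y => g y - m') (hg.sub continuousOn_const)
  rw [div_mul_eq_mul_div, le_div_iff₀ hv]
  calc (m - m') ^ 2 * (volume U).toReal = (volume U).toReal * (m - m') ^ 2 := mul_comm _ _
    _ ≤ 2 * I1 + 2 * (N * I2) := by rw [e1]; linarith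
    _ ≤ (2 + 2 * N) * (I1 + I2) := by nlinarith [mul_nonneg hN1 hI10, mul_nonneg hN1 hI20]

end Vale.Agent.P284.H958
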